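import Vale.Agent.P200.Eq.SDefs
import Vale.Agent.P200.Eq.Fn
import Vale.Agent.P200.Main

open Module Finset MvPolynomial TensorProduct

namespace Vale.Agent.P200.Eq

universe u v

/-! ### QBin.lean (import Mathlib) -/

theorem exists_zeta (K : Type u) [Field K] [IsAlgClosed K] (a : ℕ) (ha : 0 < a) :
    ∃ ζ : K, ζ ^ a = 1 ∧ ∀ (R : Type v) [Ring R] [Algebra K R] (M : ℕ) (Y : Fin M → R),
      (∀ s t, s < t → Y s * Y t = ζ • (Y t * Y s)) → (∑ s, Y s) ^ a = ∑ s, Y s ^ a := sorry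

/-! ### Ore.lean (import Mathlib) -/

theorem exists_ore {E R : Type u} [DivisionRing E] [Ring R] [Module E R] (j : E →+* R)
    (hj : ∀ ε x, ε • x = j ε * x) (C J : ℕ → Submodule E R) (hJC : ∀ d, J d ≤ C d)
    (hj0 : ∀ ε, j ε ∈ C 0)
    (hmul : ∀ d e, ∀ x ∈ C d, ∀ y ∈ C e, x * y ∈ C (d + e))
    (hJl : ∀ d e, ∀ x ∈ J d, ∀ y ∈ C e, x * y ∈ J (d + e))
    (hJr : ∀ d e, ∀ x ∈ C d, ∀ y ∈ J e, x * y ∈ J (d + e))
    (hprime : ∀ d e, ∀ x ∈ C d, ∀ y ∈ C e, x * y ∈ J (d + e) → x ∈ J d ∨ y ∈ J e)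
    (h1 : (1 : R) ∉ J 0) (N m : ℕ) (hfin : ∀ d, Module.Finite E (C d))
    (hgr : ∀ d, finrank E (C d) ≤ N * (d + 1) ^ m) :
    ∃ (D : Type u) (_ : DivisionRing D) (Φ : ℕ → R → D),
      (∀ d, ∀ x ∈ C d, ∀ y ∈ C d, Φ d (x + y) = Φ d x + Φ d y) ∧
      (∀ d e, ∀ x ∈ C d, ∀ y ∈ C e, Φ (d + e) (x * y) = Φ d x * Φ e y) ∧
      Φ 0 1 = 1 ∧ (∀ d, ∀ x ∈ C d, Φ d x = 0 ↔ x ∈ J d) ∧
      ∀ y : D, (∀ d, ∀ x ∈ C d, Commute y (Φ d x)) → ∀ z, Commute y z := sorry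

/-! ### MF.lean (import Eq.Basic) -/

theorem exists_mf {R Γ Υ : Type*} [CommRing R] [AddCommGroup Γ] (Hm : Γ → R → Prop)
    (h0 : ∀ γ, Hm γ 0) (hneg : ∀ γ x, Hm γ x → Hm γ (-x)) (s : Finset Υ) (α : Υ → Γ) (δ : Γ)
    (a b : Υ → R) (ha : ∀ y ∈ s, Hm (α y) (a y)) (hb : ∀ y ∈ s, Hm (2 • δ - α y) (b y)) :
    ∃ (Λ : Type) (_ : Fintype Λ) (_ : DecidableEq Λ) (w : Λ → Γ) (d : Matrix Λ Λ R),
      (∀ l l', Hm (δ + w l - w l') (d l l')) ∧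
      d * d = Matrix.scalar Λ (∑ y ∈ s, a y * b y) ∧
      (∀ y ∈ s, ∃ h, d * h + h * d = Matrix.scalar Λ (a y)) ∧
      (∀ y ∈ s, ∃ h, d * h + h * d = Matrix.scalar Λ (b y)) ∧
      ∑ l, q (w l) = ∏ y ∈ s, (1 + q (δ - α y)) := sorry

/-! ### Trdeg.lean (import Eq.Fn) -/

theorem exists_mem_span {K : Type u} [Field K] {W : Type} {n r : ℕ} {S T : Type} [Fintype S]
    [Fintype T] (lam : Fin r → (Fin n →₀ ℕ) → K)
    (hlam : ∀ (F : Type u) [Field F] [Algebra K F] (c : Fin r → F), c ≠ 0 →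
      ¬ Rk1 (fun β => ∑ j, c j * algebraMap K F (lam j β)) (Fintype.card T))
    (x : S → T → Fin n → W) (χ : Fin r → W) (σ : Finset W)
    (hσ : ∀ v ∈ σ, (∃ s t i, v = x s t i) ∨ ∃ j, v = χ j)
    (hcard : r + Fintype.card S * (n * Fintype.card T) < σ.card + 2 * Fintype.card S)
    (j₀ : Fin r) :
    ∃ (g : MvPolynomial W K) (m : ℕ), g ≠ 0 ∧ g ∈ supported K (σ : Set W) ∧
      X (χ j₀) ^ m * g ∈ Ideal.span (Set.range fun p : S × Fin n =>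
        fn (fun β => ∑ j, (X (χ j) : MvPolynomial W K) * C (lam j β))
          (X p.2 * ∏ t, ∑ i, C (X (x p.1 t i)) * X i)) := sorry

/-! ### NotRk.lean (import Eq.Fn) -/

theorem not_rk1 {K : Type u} [Field K] {n r p e : ℕ} (w : Fin p → MvPolynomial (Fin n) K)
    (hw : ∀ l, (w l).IsHomogeneous (e + 1))
    (hb : ∀ i, ∃ N, (X i : MvPolynomial (Fin n) K) ^ N ∈ Ideal.span (Set.range w))
    (lam : Fin r → (Fin n →₀ ℕ) → K) (hkill : ∀ j l, fn (lam j) (w l) = 0)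
    (β : Fin r → (Fin n →₀ ℕ)) (hβ : ∀ j, (β j).degree = e + 1)
    (hdual : ∀ j j', lam j (β j') = if j = j' then 1 else 0)
    (F : Type u) [Field F] [Algebra K F] (c : Fin r → F) (hc : c ≠ 0) :
    ¬ Rk1 (fun γ => ∑ j, c j * algebraMap K F (lam j γ)) e := sorry

/-- dual bases adapted to the span of `w` -/
theorem exists_dual {K : Type u} [Field K] {n p a : ℕ} (w : Fin p → MvPolynomial (Fin n) K)
    (hw : ∀ l, (w l).IsHomogeneous a) (hli : LinearIndependent K w) :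
    ∃ (r : ℕ) (lam : Fin r → (Fin n →₀ ℕ) → K) (θ : Fin p → (Fin n →₀ ℕ) → K)
      (β : Fin r → (Fin n →₀ ℕ)),
      (∀ j, (β j).degree = a) ∧ (∀ j j', lam j (β j') = if j = j' then 1 else 0) ∧
      (∀ l j, θ l (β j) = 0) ∧ (∀ j l, fn (lam j) (w l) = 0) ∧
      (∀ l l', fn (θ l) (w l') = if l = l' then 1 else 0) ∧
      ∀ γ : Fin n →₀ ℕ, γ.degree = a → monomial γ (1 : K) =
        ∑ l, θ l γ • w l + ∑ j, lam j γ • monomial (β j) 1 := sorry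

/-! ### Cells.lean (import Eq.Basic) -/

section cells

variable {ι V Γ : Type*} [AddCommGroup Γ] [Fintype ι] [Fintype V]

theorem act_cnt_dir (G : Gr ι V Γ) (A : Set (ι × Mon V)) (v : V)
    (hA : ∀ p : ι × Mon V, p ∈ A ↔ (p.1, p.2 + Finsupp.single v 1) ∈ A) :
    act (1 - q (G.wt v)) (G.cnt A) = G.cnt {p ∈ A | p.2 v = 0} := sorry

theorem exists_cells_set (G : Gr ι V Γ) (A0 A1 : Set (ι × Mon V)) (h0 : Upper A0)
    (h1 : Upper A1) (h : A0 ⊆ A1) :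
    ∃ 𝒞 : Finset ((ι × Mon V) × Finset V),
      act G.den (G.cnt A1 - G.cnt A0) = ⇑(∑ c ∈ 𝒞, G.cellK c).coeff ∧
      ∀ c ∈ 𝒞, c.1 ∈ A1 ∧
        ∀ m : Mon V, (∀ v, m v ≠ 0 → v ∈ c.2) → (c.1.1, c.1.2 + m) ∉ A0 := sorry

theorem act_cnt_coprime (G : Gr ι V Γ) {p : ℕ} (m : Fin p → Mon V)
    (hdisj : ∀ i j, i ≠ j → Disjoint (m i).support (m j).support) :
    act G.den (G.cnt {x | ∀ j, ¬ m j ≤ x.2}) =
      ⇑((∑ i, q (G.w i)) * ∏ j, (1 - q (Finsupp.weight G.wt (m j)))).coeff := sorry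

end cells

/-! ### Series.lean (import Eq.SDefs) -/

section series

variable {Γ : Type*} [AddCommGroup Γ]

theorem Pos.ord_left {F F' : PowerSeries ℤ} (h : Pos F) (h' : Pos F') {j : ℕ}
    (ho : Ord (F + F') j) : Ord F j := sorry

theorem Pos.add {F F' : PowerSeries ℤ} (h : Pos F) (h' : Pos F') : Pos (F + F') := sorry

theorem ord_q_mul (dg : Γ →+ ℤ) (γ : Γ) (F : PowerSeries ℤ) (j : ℕ) :
    Ord (piS dg (q γ) * F) j ↔ Ord F j := sorry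

theorem coeff_q_mul (dg : Γ →+ ℤ) (γ : Γ) {F : PowerSeries ℤ} {j : ℕ} (h : Ord F j) :
    PowerSeries.coeff j (piS dg (q γ) * F) = PowerSeries.coeff j F := sorry

theorem ord_one_sub_q_mul (dg : Γ →+ ℤ) (γ : Γ) {F : PowerSeries ℤ} {j : ℕ} (h : Ord F j) :
    Ord (piS dg (1 - q γ) * F) (j + 1) ∧
      PowerSeries.coeff (j + 1) (piS dg (1 - q γ) * F) = dg γ * PowerSeries.coeff j F := sorry

theorem pos_cells {ι V : Type*} [Fintype V] (G : Gr ι V Γ) (dg : Γ →+ ℤ)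
    (hdg : ∀ v, dg (G.wt v) = 1) (𝒞 : Finset ((ι × Mon V) × Finset V)) :
    Pos (piS dg (∑ c ∈ 𝒞, G.cellK c)) := sorry

/-! ### Moment.lean (import Eq.Series) -/

theorem moment (dg : Γ →+ ℤ) {M a r : ℕ} [NeZero a] (hr : r < M)
    (f : Fin M → ZMod a → Γ →+ ℤ) (k α k' : ZG Γ) (z : Γ) (hz : dg z = -a)
    (hfz : ∀ s t, f s t z = 0) (hk : k = α * (1 - q z) ^ r + k') (hk' : k' ∈ augI Γ ^ (2 * M))
    (hsum : ∀ s γ, k.coeff γ ≠ 0 → ∑ t, f s t γ = 1) (θ : Fin M → Γ ≃ Γ)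
    (h1 : ∀ s γ, k.coeff (θ s γ) = k.coeff γ) (h2 : ∀ s γ, dg (θ s γ) = dg γ)
    (h3 : ∀ s t γ, f s (t + 1) (θ s γ) = f s t γ)
    (h4 : ∀ s s' t γ, s' ≠ s → f s' t (θ s γ) = f s' t γ) :
    ((a : ℤ) ^ (M + r)) ∣ PowerSeries.coeff r (piS dg k) := sorry

end series

/-! ### Step -/

theorem exists_step {K E : Type u} [Field K] [IsAlgClosed K] [DivisionRing E] [Algebra K E]
    {n p a : ℕ} (ha : 0 < a) (w : Fin p → MvPolynomial (Fin n) K)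
    (hw : ∀ l, (w l).IsHomogeneous a) (hli : LinearIndependent K w)
    (hb : ∀ i, ∃ N, (X i : MvPolynomial (Fin n) K) ^ N ∈ Ideal.span (Set.range w)) :
    ∃ (D : Type u) (_ : DivisionRing D) (_ : Algebra K D) (j : E →ₐ[K] D) (e : Fin n → D)
      (τ : Fin p → D), (∀ i x, Commute (e i) (j x)) ∧ (∀ l x, Commute (τ l) (j x)) ∧
      (∀ ξ : Fin n → K, (∑ i, ξ i • e i) ^ a = ∑ l, eval ξ (w l) • τ l) ∧
      ∀ θ : Fin p → E, ∑ l, j (θ l) * τ l = 0 → θ = 0 := sorry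

/-! ### Tower.lean -/

theorem exists_tower {K : Type u} [Field K] {n p a : ℕ} (w : Fin p → MvPolynomial (Fin n) K)
    (hstep : ∀ (E : Type u) [DivisionRing E] [Algebra K E],
      ∃ (D : Type u) (_ : DivisionRing D) (_ : Algebra K D) (j : E →ₐ[K] D) (e : Fin n → D)
        (τ : Fin p → D), (∀ i x, Commute (e i) (j x)) ∧ (∀ l x, Commute (τ l) (j x)) ∧
        (∀ ξ : Fin n → K, (∑ i, ξ i • e i) ^ a = ∑ l, eval ξ (w l) • τ l) ∧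
        ∀ θ : Fin p → E, ∑ l, j (θ l) * τ l = 0 → θ = 0) (c : ℕ) :
    ∃ (D : Type u) (_ : DivisionRing D) (_ : Algebra K D) (e : ℕ → Fin n → D)
      (τ : ℕ → Fin p → D),
      (∀ i < c, ∀ i' < c, i ≠ i' → ∀ x y, Commute (e i x) (e i' y)) ∧
      (∀ i < c, ∀ ξ : Fin n → K, (∑ x, ξ x • e i x) ^ a = ∑ l, eval ξ (w l) • τ i l) ∧
      ∀ (R : Finset ℕ) (S : Finset (Fin p)), (∀ i ∈ R, i < c) → R.card = S.card → ∀ l ∈ S,
        ∃ b : ℕ → D, ∀ l' ∈ S, ∑ i ∈ R, b i * τ i l' = if l' = l then 1 else 0 := sorry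

/-! ### Layer.lean (import P200.Groebner) -/

theorem exists_upper {D : Type*} [DivisionRing D] {n c : ℕ} (i₀ i₁ : Fin n) (hi₀ : (i₀ : ℕ) = 0)
    (hi₁ : (i₁ : ℕ) = 1) (a₀ a₁ a₂ : ℕ) (h0 : 0 < a₀) (h01 : a₀ ≤ a₁)
    (U : ℕ → Submodule D ((Fin n →₀ ℕ) →₀ D))
    (hsupp : ∀ d, ∀ v ∈ U d, ∀ β ∈ v.support, β.degree = d)
    (hshift : ∀ d i, ∀ v ∈ U d, v.mapDomain (· + Finsupp.single i 1) ∈ U (d + 1))
    (F₀ F₁ : (Fin n →₀ ℕ) →₀ D) (hF₀ : F₀ ∈ U a₀) (hF₁ : F₁ ∈ U a₁) (d₀ : ℕ)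
    (hfin : ∀ α : Fin n →₀ ℕ, d₀ ≤ α.degree → Finsupp.single α (1 : D) ∈
      Submodule.span D (Set.range (fun β => F₀.mapDomain (· + β)) ∪
        Set.range (fun β => F₁.mapDomain (· + β))) ⊔
      Finsupp.supported D D {β | ∃ i : Fin n, 2 ≤ (i : ℕ) ∧ β i ≠ 0})
    (hpow : ∀ i : Fin n, 2 ≤ (i : ℕ) → (i : ℕ) < c → ∃ v ∈ U a₂,
      v (Finsupp.single i a₂) ≠ 0 ∧ ∀ β ∈ v.support, β = Finsupp.single i a₂ ∨
        ∃ j : Fin n, c ≤ (j : ℕ) ∧ β = Finsupp.single j a₂) :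
    ∃ A : Set (Fin n →₀ ℕ), (∀ α ∈ A, ∀ β, α ≤ β → β ∈ A) ∧
      Finsupp.single i₀ a₀ ∈ A ∧ Finsupp.single i₁ a₁ ∈ A ∧
      (∀ i : Fin n, 2 ≤ (i : ℕ) → (i : ℕ) < c → Finsupp.single i a₂ ∈ A) ∧
      ∀ d, {α ∈ A | α.degree = d}.ncard = finrank D (U d) := sorry

/-! ### PrepW.lean (import P200.Main) -/

theorem exists_w {k : Type u} [Field k] [Infinite k] {n c : ℕ} (hc : c ≤ n) (a : Fin c → ℕ)
    (A : ℕ) (hA : 0 < A) (hle : ∀ i, a i ≤ A) (hpos : ∀ i, 0 < a i)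
    (f : Fin c → MvPolynomial (Fin n) k) (hdeg : ∀ i, (f i).IsHomogeneous (a i))
    (hreg : Reg f) :
    ∃ w l : Fin n → MvPolynomial (Fin n) k, (∀ j, (w j).IsHomogeneous A) ∧
      LinearIndependent k w ∧
      (∃ d₀, ∀ α : Fin n →₀ ℕ, d₀ ≤ α.degree → monomial α (1 : k) ∈ Ideal.span (Set.range w)) ∧
      (∀ i : Fin c, f i ∣ w (Fin.castLE hc i)) ∧ (∀ j, (l j).IsHomogeneous 1) ∧
      ∀ j : Fin n, c ≤ (j : ℕ) → w j = l j ^ A := sorry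

/-! ### Final.lean -/

theorem egh_of_tower (K : Type u) [Field K] (n c : ℕ) (hc2 : 2 ≤ c) (hc : c ≤ n)
    (a : Fin c → ℕ) (hpos : ∀ i, 0 < a i) (hmono : Monotone a)
    (heq : ∀ i j : Fin c, 2 ≤ (i : ℕ) → 2 ≤ (j : ℕ) → a i = a j)
    (f : Fin c → MvPolynomial (Fin n) K) (hdeg : ∀ i, (f i).IsHomogeneous (a i)) (hreg : Reg f)
    (I : Ideal (MvPolynomial (Fin n) K)) (hf : ∀ i, f i ∈ I)
    (htower : ∀ (k : Type u) [Field k] [IsAlgClosed k] (A : ℕ), 0 < A →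
      ∀ w : Fin n → MvPolynomial (Fin n) k, (∀ l, (w l).IsHomogeneous A) →
      LinearIndependent k w →
      (∀ i, ∃ N, (X i : MvPolynomial (Fin n) k) ^ N ∈ Ideal.span (Set.range w)) →
      ∃ (D : Type u) (_ : DivisionRing D) (_ : Algebra k D) (e : ℕ → Fin n → D)
        (τ : ℕ → Fin n → D),
        (∀ i < c, ∀ i' < c, i ≠ i' → ∀ x y, Commute (e i x) (e i' y)) ∧
        (∀ i < c, ∀ ξ : Fin n → k, (∑ x, ξ x • e i x) ^ A = ∑ l, eval ξ (w l) • τ i l) ∧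
        ∀ (R : Finset ℕ) (S : Finset (Fin n)), (∀ i ∈ R, i < c) → R.card = S.card → ∀ l ∈ S,
          ∃ b : ℕ → D, ∀ l' ∈ S, ∑ i ∈ R, b i * τ i l' = if l' = l then 1 else 0) :
    ∃ A : Set (Fin n →₀ ℕ),
      (∀ i : Fin c, X (Fin.castLE hc i) ^ a i ∈
        Ideal.span ((fun α => monomial α (1 : K)) '' A)) ∧
      ∀ d, dimIn I d = dimIn (Ideal.span ((fun α => monomial α (1 : K)) '' A)) d := sorry

end Vale.Agent.P200.Eq
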